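import Vale.Agent.P074.Upper
import Vale.Agent.P074.Lower
import Vale.Agent.P074.Exist

namespace Vale.Agent.Results.P074.OptimalExponentOneThird

open MeasureTheory Vale.Agent.P074

theorem result : ∀ d : ℕ, 2 ≤ d →
    IsGreatest {α : ℝ | α ∈ Set.Ioc 0 1 ∧ Admissible d α} (1 / 3) ∧
    sSup {α : ℝ | α ∈ Set.Ioc 0 1 ∧ Admissible d α} = 1 / 3 ∧
    ¬ Admissible d (1 / 2) ∧
    ∀ K : Set (EuclideanSpace ℝ (Fin d)), IsCompact K → Convex ℝ K → (interior K).Nonempty →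
      ∀ Y : Set (EuclideanSpace ℝ (Fin d)), IsCompact Y → ∀ μ : Measure (EuclideanSpace ℝ (Fin d)),
        IsProbabilityMeasure μ → μ Yᶜ = 0 → ∃ T, IsOTMap (uniformOn K) μ T := by
  intro d hd
  obtain ⟨n, rfl⟩ : ∃ n, d = n + 2 := ⟨d - 2, by omega⟩
  have hG : IsGreatest {α : ℝ | α ∈ Set.Ioc 0 1 ∧ Admissible (n + 2) α} (1 / 3) :=
    ⟨⟨⟨by norm_num, by norm_num⟩, admissible_third⟩, fun α hα =>
      le_of_not_gt fun h => not_admissible n α h hα.2⟩
  exact ⟨hG, hG.csSup_eq, not_admissible n _ (by norm_num),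
    fun K hK hKc hKi Y hY μ hμP hμ => exists_otMap hK hKc hKi hY μ hμ⟩

end Vale.Agent.Results.P074.OptimalExponentOneThird
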